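import Vale.Agent.P216FA.Plan
import Vale.Agent.P216U.Stab
import Vale.Agent.P216LC.Ls

/-!
# P216LN: backward extension of blow up sequences (ST1, EXT, CORE, LCN)
-/

open scoped Manifold ContDiff Topology ENNReal
open Set MeasureTheory Filter

set_option maxSynthPendingDepth 3

noncomputable section

namespace Vale.Agent.P216LN

open Vale.Agent.P216R Vale.Agent.P216DC Vale.Agent.P216SG Vale.Agent.P216BF Vale.Agent.P216FA
open Vale.Agent.P216U

theorem ok_mono {P : Cs} {e e' : ℝ} (h : P.Ok e) (he : e ≤ e') : P.Ok e' :=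
  { h with εe := h.εe.trans he }

section one

variable {X : Mf} {F : Dat X.M} {c : ℕ → ℝ} {P : Cs} {W : Set X.M} {y : X.M}
  {r r' T T' s A K K' τ θ ρ : ℝ}

theorem reg_mono (h : F.Reg r T W s y) (hr : r ≤ r') (hT : T ≤ T') : F.Reg r' T' W s y :=
  ⟨h.prec, by linarith [h.le], h.mem, by linarith [h.dle]⟩

theorem reg_base (h : F.Bas c) (hr : 0 ≤ r) (hT : 0 ≤ T) : F.Reg r T F.U F.t F.x :=
  ⟨Or.inl ⟨rfl, rfl⟩, by linarith, h.mem, by linarith⟩

/-- the balls of the base slice lie in the region -/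
theorem reg_ball (h : F.Ctl P r) (hr : 0 ≤ r) (hT : 0 ≤ T) (hy : y ∈ bl (F.g F.t) F.U F.x A) :
    F.Reg A T F.U F.t y :=
  ⟨Or.inl ⟨rfl, rfl⟩, by linarith, bl_subset hy, by
    linarith [h.env.d1 _ _ _ (reg_base h.bas hr hr) y (bl_subset hy), (mem_bl_iff.1 hy).2]⟩

theorem bas_met (h : F.Bas c) : Met (F.g F.t) F.U := h.sf.met h.sl

theorem bas_hs (h : F.Bas c) : Hs F.U := h.sf.sl_hs h.sl

theorem bas_cpl (h : F.Bas c) : Cpl (F.g F.t) F.U := (bas_met h).cpl (h.sf.sl_cpt h.sl)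

/-- windows about all points of a ball extend a parabolic neighbourhood backward -/
theorem glue (h : F.Bas c) (hτ : 0 ≤ τ) (hθ : 0 < θ) (hρ : 0 < ρ)
    (h1 : ∀ s ∈ Ioc (F.t - τ) F.t, ∀ y ∈ bl (F.g F.t) F.U F.x A, RmB (F.g s) 0 y K)
    (h2 : ∀ y ∈ bl (F.g F.t) F.U F.x A, ∃ W, y ∈ W ∧ ParB F.g W y (F.t - τ) ρ θ K) :
    ParB F.g F.U F.x F.t A (τ + θ) K := by
  refine ⟨h.sf.rf_of_born h.sl (by linarith) ((bas_met h).isOpen_bl _ _) bl_subset fun y hy => ?_,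
    fun s hs y hy => ?_⟩
  · obtain ⟨W, k1, k2⟩ := h2 y hy
    have := (h.sf.subset_liv (by linarith) k2.1.toFam (mem_bl_self k1 hρ)).1
    linarith
  · rcases le_or_gt s (F.t - τ) with k | k
    · obtain ⟨W, k1, k2⟩ := h2 y hy
      exact k2.2 s ⟨by linarith [hs.1], k⟩ y (mem_bl_self k1 hρ)
    · exact h1 s ⟨k, hs.2⟩ y hy

end one

theorem wr_pos {a K : ℝ} (ha : 0 < a) (hK : 0 < K) : 0 < wr a K := div_pos ha (Real.sqrt_pos.2 hK)

theorem wt_pos {a K : ℝ} (ha : 0 < a) (hK : 0 < K) : 0 < wt a K := by unfold wt; positivity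

/-- the conclusion of `WIN` for the constant `a` -/
def WA (P : Cs) (a : ℝ) : Prop :=
  ∀ r T : ℝ, ∃ lev > 0, ∃ r' ≥ r,
    ∀ (X : Mf) (F : Dat X.M) (W : Set X.M) (s : ℝ) (y : X.M) (K : ℝ), F.Ctl P lev →
      F.Reg r T W s y → max P.L 1 ≤ K → Sc (F.g s) y ≤ K →
      ParB F.g W y s (wr a K) (wt a K) (16 * K) ∨
        ∃ z, F.Born W s y z (wr a K) (wt a K) (4 * K) r'

section seq

variable {ι : Type} {l : Ultrafilter ι} {X : ι → Mf} {F : ∀ n, Dat (X n).M} {P : Cs}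
  {a r T T' A K K' τ : ℝ}

theorem bu_met {l : Filter ι} (h : BU P l F) (n : ι) : Met ((F n).g 0) (F n).U :=
  (h.all n).2.1 ▸ bas_met (h.all n).1

theorem bu_hs {l : Filter ι} (h : BU P l F) (n : ι) : Hs (F n).U := bas_hs (h.all n).1

theorem bu_cpl {l : Filter ι} (h : BU P l F) (n : ι) : Cpl ((F n).g 0) (F n).U :=
  (h.all n).2.1 ▸ bas_cpl (h.all n).1

theorem eb_mono {l : Filter ι} (h : BU P l F) (H : EB l F T K) (hT : T' ≤ T) (hK : K ≤ K') :
    EB l F T' K' := fun A hA =>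
  (H A hA).mono fun n k => parB_sub k (bu_met h n) Subset.rfl hT hK

/-- one step backward on one ball -/
theorem step (hW : WA P a) (ha : 0 < a) (h : BU P l F) (hτ : 0 ≤ τ)
    (h0 : τ = 0 ∨ 0 < τ ∧ ∃ T' > τ, ∃ K, EB l F T' K) (hc : ¬ CapAt (wr a) (wt a) P.L l F τ)
    (hK : max P.L 1 ≤ K) (hK' : 16 * K ≤ K')
    (h1 : ∀ᶠ n in l, ∀ s ∈ Ioc (-τ) 0, ∀ y ∈ bl ((F n).g 0) (F n).U (F n).x A,
      RmB ((F n).g s) 0 y K')
    (h2 : ∀ᶠ n in l, ∀ y ∈ bl ((F n).g 0) (F n).U (F n).x A,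
      ∃ W, (F n).Reg r τ W (-τ) y ∧ Sc ((F n).g (-τ)) y ≤ K) :
    ∀ᶠ n in l, ParB (F n).g (F n).U (F n).x 0 A (τ + wt a K) K' := by
  have K0 : 0 < K := (one_pos.trans_le (le_max_right _ _)).trans_le hK
  obtain ⟨lev, l0, r', hr, H⟩ := hW r τ
  rcases l.em fun n => ∃ y ∈ bl ((F n).g 0) (F n).U (F n).x A, ∃ W z,
      (F n).Reg r' τ W (-τ) y ∧ Sc ((F n).g (-τ)) y ≤ K ∧
      (F n).Born W (-τ) y z (wr a K) (wt a K) (4 * K) r' with k | k
  · exact (hc ⟨h0, A, K, r', hK, k⟩).elim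
  filter_upwards [k, h1, h2, h.ctl lev l0] with n k1 k2 k3 k4
  have e := (h.all n).2.1
  have := glue (A := A) (K := K') (h.all n).1 hτ (wt_pos ha K0) (wr_pos ha K0)
    (by rw [e, zero_sub]; exact k2) (by
      rw [e, zero_sub]
      intro y hy
      obtain ⟨W, a1, a2⟩ := k3 y hy
      rcases H _ _ W _ y K k4 a1 hK a2 with b | ⟨z, b⟩
      · exact ⟨W, a1.mem, b.1, fun s hs u hu => rmB_mono (b.2 s hs u hu) hK'⟩
      · exact (k1 ⟨y, hy, W, z, reg_mono a1 hr le_rfl, a2, b⟩).elim)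
  rwa [e] at this

/-- the first step on one ball, from a bound for the scalar curvature -/
theorem step0 (hW : WA P a) (ha : 0 < a) (h : BU P l F) (hc : ¬ CapAt (wr a) (wt a) P.L l F 0)
    (hK : max P.L 1 ≤ K)
    (h2 : ∀ᶠ n in l, ∀ y ∈ bl ((F n).g 0) (F n).U (F n).x A, Sc ((F n).g 0) y ≤ K) :
    ∀ᶠ n in l, ParB (F n).g (F n).U (F n).x 0 A (wt a K) (16 * K) := by
  have := step (A := A) (r := A) hW ha h le_rfl (Or.inl rfl) hc hK le_rfl
    (.of_forall fun n s hs => (by simp at hs : False).elim) (by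
      filter_upwards [h2, h.ctl 1 one_pos] with n k1 k2 y hy
      have e := (h.all n).2.1
      rw [neg_zero]
      exact ⟨_, e ▸ reg_ball k2 zero_le_one le_rfl (e ▸ hy), k1 y hy⟩)
  rwa [zero_add] at this

theorem pin_lim' {Y : Type} [TopologicalSpace Y] [ChartedSpace E3 Y] [IsManifold 𝓘(ℝ, E3) ∞ Y]
    {U : ∀ n, Set (X n).M} {g : ∀ n, Ten E3 (X n).M} {f : ∀ n, Y → (X n).M} {h : Ten E3 Y}
    {W : Set Y} {p : Y} (hc : Conv l U g f h W) (hg : ∀ᶠ n in l, Met (g n) (U n))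
    (hP : ∀ A > 0, ∀ᶠ n in l, Pin (g n) (U n) A) (hp : p ∈ W) : SecGe h p 0 :=
  secGe_of_forall fun ε ε0 => by
  have η0 : 0 < ε / (|Sc h p| + 1) := by positivity
  set η := ε / (|Sc h p| + 1) with hη
  have h1 := conv_secGe hc hg hp (((conv_sc_pt hc hg hp).const_mul η).max (tendsto_const_nhds
    (x := Real.exp (3 + 1 / η) / (Real.exp (3 + 1 / η) / ε)))).neg
    (((hP _ (by positivity)).and (hc.ap_mem hp (ap_const p))).mono fun n k => k.1 _ k.2 η η0)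
  refine secGe_mono hc.met hp h1 (neg_le_neg (max_le ?_ (le_of_eq (by field_simp))))
  rw [hη, div_mul_eq_mul_div, div_le_iff₀ (by positivity)]
  nlinarith [le_abs_self (Sc h p)]

/-- the base slices converge as soon as every ball has a backward window -/
theorem exists_lim (h : BU P l F) (κ0 : 0 < P.κ)
    (H : ∀ A > 0, ∃ τ > 0, ∃ K, ∀ᶠ n in l, ParB (F n).g (F n).U (F n).x 0 A τ K) :
    Nonempty (LimF l F) := by
  refine lim0_all ι l (fun n => (X n).M) (fun n => (F n).U) (fun n => (F n).g) (fun n => (F n).x) ⊤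
    ⟨bu_met h, bu_hs h, fun n => (h.all n).1.mem, fun r r0 _ => ?_, P.κ, κ0, ?_⟩
  · obtain ⟨τ, τ0, K, k⟩ := H r r0
    exact ⟨τ, τ0, K, k.mono fun n k => ⟨(bu_cpl h n).cpt (h.all n).1.mem r, k⟩⟩
  · obtain ⟨τ, τ0, K, k⟩ := H 1 one_pos
    have q : 1 ≤ 6 * |K| + 1 := by linarith [abs_nonneg K]
    have q1 : 1 / (6 * |K| + 1) ≤ 1 := (div_le_one (by linarith)).2 q
    refine ⟨1 / (6 * |K| + 1), by positivity, ENNReal.ofReal_lt_top, ?_⟩
    filter_upwards [k, h.ctl 1 one_pos] with n k1 k2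
    have e := (h.all n).2.1
    have := k2.env.nc _ _ _ (reg_base k2.bas zero_le_one zero_le_one) (1 / (6 * |K| + 1))
      ⟨by positivity, q1⟩
    rw [e] at this
    refine this fun y hy => ?_
    have b := abs_sc_le3 finrank_euclideanSpace_fin (bu_met h n) (bl_subset hy)
      (k1.2 0 ⟨by linarith, le_rfl⟩ y (bl_mono q1 hy))
    rw [div_pow, one_pow, one_div_one_div]
    nlinarith [le_abs_self K, le_abs_self (Sc ((F n).g 0) y), abs_nonneg K]

/-- the limit of the base slices has nonnegative curvature -/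
theorem lim_nn (h : BU P l F) (L : LimF l F) : NN L.h univ :=
  ⟨L.conv.met, fun _ _ _ _ e => disjoint_nhds_nhds.2 e, isPreconnected_univ, L.cpl, fun p _ =>
    pin_lim' L.conv (.of_forall (bu_met h)) (fun A A0 => (h.ctl A A0).mono fun n k => by
      have := k.env.pin _ _ k.bas.sl ⟨by linarith, le_rfl⟩
      rwa [(h.all n).2.1] at this) trivial⟩

/-- the limit of the base slices has no tripods at points of large curvature -/
theorem lim_lt (hL : LTL) (h : BU P l F) (L0 : 0 < P.L)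
    (hN : ∀ (X : Mf) (g : Ten E3 X.M) (U : Set X.M) (x : X.M) (σ : ℝ), Met g U → Hs U →
      Cen g U x σ P.ε → Tri 0 g U x σ) (L : LimF l F) : LT P.L P.A L.h univ := by
  refine hL ι l X ⟨L.X⟩ _ _ L.F L.h P.L P.A L.conv (lim_nn h L).hs isPreconnected_univ L.cpl
    (.of_forall fun n => ⟨bu_met h n, bu_hs h n⟩) L0 fun y => ?_
  obtain ⟨A, A0, k, -⟩ := exists_ofReal (L.lt y)
  filter_upwards [L.conv.ap_lt L.ap (ap_const y) k, h.ctl A A0] with n k1 k2 k3 k4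
  have e := (h.all n).2.1
  have := k2.cn _ _ _ (reg_ball k2 A0.le A0.le (y := L.F n y) (by rw [e]; exact k1))
    (by rw [e]; exact k3)
  rw [e] at this
  exact hN _ _ _ _ _ (bu_met h n) (bu_hs h n) (this.nt.neck k4)

/-- separating necks survive in the limit of the base slices -/
theorem lim_ls (h : BU P l F) (hP : P.Ok (1 / 1000)) (L : LimF l F) :
    P216LC.LS P.L P.A L.h univ := by
  refine P216LC.ls_lim L.conv (.of_forall fun n => ⟨bu_met h n, bu_hs h n,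
    (h.all n).1.sep _ _ (h.all n).1.sl⟩) L.cpl hP.L0.le (by linarith [hP.A1]) hP.εe fun y _ hy => ?_
  obtain ⟨A, A0, k, -⟩ := exists_ofReal (L.lt y)
  filter_upwards [L.conv.ap_lt L.ap (ap_const y) k, h.ctl A A0, (L.conv.sc_ap
    (.of_forall (bu_met h)) trivial (ap_const y)).eventually (lt_mem_nhds hy)] with n k1 k2 k3
  have e := (h.all n).2.1
  have := k2.cn _ _ _ (reg_ball k2 A0.le A0.le (y := L.F n y) (by rw [e]; exact k1))
    (by rw [e]; exact k3.le)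
  rw [e] at this
  exact this.nt.neck

/-- the limit of the base slices has bounded curvature -/
theorem lim_bdd (h : BU P l F) (hP : P.Ok (1 / 1000)) (L : LimF l F) : ∃ K, ∀ p, Sc L.h p ≤ K := by
  have n := lim_nn h L
  obtain ⟨R, K, H⟩ := P216LC.s3u (ι := Unit) (h := fun _ => L.h) (o := L.o) (D := 0) n.hs n.con
    trivial (show 99 ≤ P.A by linarith [hP.A1]) n.met n.cpl n.sec (fun _ => n.met) (fun _ => n.cpl)
    (fun _ => n.sec) (fun _ _ _ _ _ => ⟨le_rfl, (add_zero _).ge⟩) fun _ => lim_ls h hP L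
  obtain ⟨K', H'⟩ := (n.cpl L.o trivial (max R 0)).bddAbove_image
    (n.met.continuousOn_Sc.mono (subset_univ _))
  refine ⟨max K K', fun p => ?_⟩
  rcases le_total R (dd L.h univ L.o p) with k | k
  · exact (H () p trivial k).trans (le_max_left _ _)
  · exact (H' ⟨p, (mem_cbl_iff (le_max_right _ _)).2 ⟨L.ne_top _ _, k.trans (le_max_left _ _)⟩,
      rfl⟩).trans (le_max_right _ _)

/-- a bound for the scalar curvature of the limit -/
theorem sc_ev (h : BU P l F) (L : LimF l F) (H : ∀ p, Sc L.h p ≤ K) (A0 : 0 < A) :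
    ∀ᶠ n in l, ∀ y ∈ bl ((F n).g 0) (F n).U (F n).x A, Sc ((F n).g 0) y ≤ K + 1 := by
  filter_upwards [L.conv.sc_near (.of_forall fun n => ⟨bu_met h n, bu_hs h n⟩) L.cb trivial L.ap
    (tendsto_const_nhds (x := A)) (lt_add_one A) (by linarith) le_top one_pos] with n k y hy
  obtain ⟨q, -, -, k1⟩ := k y hy
  linarith [(abs_lt.1 k1).2, H q]

end seq

theorem st1 (hB : BCA) (hW : WIN) : ST1 := fun c => by
  obtain ⟨e₁, e1, hB⟩ := hB c
  refine ⟨min e₁ (1 / 1000), lt_min e1 (by norm_num), fun P hc hP => ?_⟩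
  obtain ⟨a₀, a0, hW⟩ := hW P _ hP
  refine ⟨a₀, a0, fun a ha ι l X F h hδ => or_iff_not_imp_left.2 fun hcap => ?_⟩
  have k1 : ∀ A > 0, ∃ τ > 0, ∃ K, ∀ᶠ n in l, ParB (F n).g (F n).U (F n).x 0 A τ K := by
    intro A A0
    obtain ⟨K, hK⟩ := hB P hc (ok_mono hP (min_le_left _ _)) 1 A
    obtain ⟨lev, l0, hK⟩ := hK 0 0
    refine ⟨_, wt_pos ha.1 ((one_pos.trans_le (le_max_right _ _)).trans_le (le_max_left _ K)), _,
      step0 (hW a ha) ha.1 h hcap (le_max_left _ K) ?_⟩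
    filter_upwards [hδ, h.ctl lev l0] with n k1 k2 y hy
    have e := (h.all n).2.1
    have := hK _ _ _ _ _ k2 k1 (reg_base k2.bas le_rfl le_rfl) (e ▸ (h.all n).2.2.le) y (e ▸ hy)
    rw [e] at this
    exact this.trans (le_max_right _ _)
  obtain ⟨L⟩ := exists_lim h hP.κ0 k1
  obtain ⟨K, hK⟩ := lim_bdd h (ok_mono hP (min_le_right _ _)) L
  refine ⟨_, wt_pos ha.1 ((one_pos.trans_le (le_max_right _ _)).trans_le (le_max_left _ (K + 1))),
    _, fun A A0 => step0 (hW a ha) ha.1 h hcap (le_max_left _ (K + 1)) ?_⟩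
  exact (sc_ev h L hK A0).mono fun n k y hy =>
    (k y hy).trans (le_max_right _ _)

theorem ext (hW : WIN) (hR : REGN) : EXT := fun P e hP => by
  obtain ⟨a₀, a0, hW⟩ := hW P e hP
  refine ⟨a₀, a0, fun a ha ι l X F T K h T0 H => or_iff_not_imp_left.2 fun hcap => ?_⟩
  set K₁ := max (max P.L 1) (6 * K) with hK₁
  have K0 : 0 < K₁ := (one_pos.trans_le (le_max_right _ _)).trans_le (le_max_left _ _)
  have θ0 := wt_pos ha.1 K0
  obtain ⟨τ, t1, t2⟩ := exists_between (max_lt T0 (show T - wt a K₁ < T by linarith))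
  have τ0 : 0 < τ := (le_max_left _ _).trans_lt t1
  have t3 : T - wt a K₁ < τ := (le_max_right _ _).trans_lt t1
  have t4 : K ≤ 16 * K₁ := by linarith [le_max_right (max P.L 1) (6 * K)]
  refine ⟨τ + wt a K₁, by linarith, 16 * K₁, fun A A0 => ?_⟩
  obtain ⟨r, A', A1, lev, l0, hR⟩ := hR P e hP A τ K
  refine step (r := r) (hW a ha) ha.1 h τ0.le (Or.inr ⟨τ0, (τ + T) / 2, by linarith, K,
    H _ ⟨by linarith, by linarith⟩⟩) (fun k => hcap ⟨τ, k⟩) (le_max_left _ _) le_rfl ?_ ?_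
  · exact (H τ ⟨τ0, t2⟩ A A0).mono fun n k s hs y hy =>
      rmB_mono (k.2 s ⟨by linarith [hs.1], hs.2⟩ y hy) t4
  · filter_upwards [H τ ⟨τ0, t2⟩ A A0, H τ ⟨τ0, t2⟩ A' A1, h.ctl lev l0] with n k1 k2 k3 y hy
    have e := (h.all n).2.1
    have m : -τ ∈ Icc (0 - τ) 0 := ⟨by linarith, by linarith⟩
    refine ⟨_, hR _ _ k3 τ0.le (e ▸ k2) y (e ▸ hy) (-τ) (e ▸ m), ?_⟩
    exact ((le_abs_self _).trans (abs_sc_le3 finrank_euclideanSpace_fin
      (SF.fam_met k1.1.toFam m) hy (k1.2 _ m y hy))).trans (le_max_right _ _)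

theorem core (h1 : ST1) (h2 : EXT) (h3 : BND) (h4 : KOUT) : CORE := fun c => by
  obtain ⟨e₁, e1, h1⟩ := h1 c
  obtain ⟨e₃, e3, h3⟩ := h3 c
  obtain ⟨e₄, e4, h4⟩ := h4 c
  refine ⟨min e₁ (min e₃ e₄), lt_min e1 (lt_min e3 e4), fun P hc hP => ?_⟩
  obtain ⟨a₁, a1, h1⟩ := h1 P hc (ok_mono hP (min_le_left _ _))
  obtain ⟨a₂, a2, h2⟩ := h2 P _ hP
  refine ⟨min a₁ a₂, lt_min a1 a2, fun a ha ι l X F h hδ => or_iff_not_imp_right.2 fun hcap => ?_⟩
  refine h4 P hc (ok_mono hP ((min_le_right _ _).trans (min_le_right _ _))) ι l X F h ?_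
  by_contra! hn
  obtain ⟨τ, τ0, hn⟩ := hn
  let S : Set ℝ := {T | ∃ K, EB l F T K}
  have hb : τ ∈ upperBounds S := fun T ⟨K, k⟩ =>
    le_of_not_gt fun e => hn K (eb_mono h k e.le le_rfl)
  obtain ⟨T₁, t1, t2⟩ := (h1 a ⟨ha.1, ha.2.trans (min_le_left _ _)⟩ ι l X F h hδ).resolve_left
    fun k => hcap ⟨0, k⟩
  have T0 : 0 < sSup S := t1.trans_le (le_csSup ⟨τ, hb⟩ t2)
  obtain ⟨K, hK⟩ := h3 P hc (ok_mono hP ((min_le_right _ _).trans (min_le_left _ _))) ι l X F _ h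
    hδ T0 fun s hs => by
      obtain ⟨T, ⟨K, k⟩, k1⟩ := exists_lt_of_lt_csSup ⟨T₁, t2⟩ hs.2
      exact ⟨K, eb_mono h k k1.le le_rfl⟩
  obtain ⟨T', k1, k2⟩ := (h2 a ⟨ha.1, ha.2.trans (min_le_right _ _)⟩ ι l X F _ K h T0
    hK).resolve_left hcap
  exact absurd (le_csSup ⟨τ, hb⟩ k2) (not_le.2 k1)

theorem lcn (h1 : CORE) (h2 : SOUT) : LCN := fun c => by
  obtain ⟨e₁, e1, h1⟩ := h1 c
  obtain ⟨e₂, e2, h2⟩ := h2 c
  refine ⟨min e₁ e₂, lt_min e1 e2, fun P hc hP ι l X F h hδ => ?_⟩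
  obtain ⟨a₁, a1, h1⟩ := h1 P hc (ok_mono hP (min_le_left _ _))
  obtain ⟨a₂, a2, h2⟩ := h2 P hc (ok_mono hP (min_le_right _ _))
  have a0 := lt_min a1 a2
  refine (h1 _ ⟨a0, min_le_left _ _⟩ ι l X F h ?_).imp_right fun ⟨T, k⟩ =>
    h2 _ ⟨a0, min_le_right _ _⟩ ι l X F T h hδ k
  have := hδ.mul_const (c 0)
  rw [zero_mul] at this
  exact (this.eventually (gt_mem_nhds (show (0 : ℝ) < 1 / 8 by norm_num))).mono fun _ k => k.le

end Vale.Agent.P216LN
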